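import Vale.Agent.P217.Rigidity.Core
import Mathlib.Data.Finsupp.Weight
import Mathlib.Topology.Algebra.InfiniteSum.Nonarchimedean
import Mathlib.Analysis.Normed.Group.Ultra
import Mathlib.Algebra.Polynomial.Roots
import Mathlib.Topology.Compactness.Compact

/-!
# P217 B4: detection by compactness

If no series with coefficients fixed by `x ↦ x^q` and nonzero `α₀` coefficient vanishes on `Λ`, then
truncations in some degree `L` are detected on `Λ` above the error `r^(L+1)`.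
-/

namespace Vale.Agent.P217.Rigidity

open Finset Filter Topology

variable {σ : Type*} [Fintype σ]

/-- Exponents of degree at most `L`. -/
noncomputable def box (σ : Type*) [Fintype σ] (L : ℕ) : Finset (σ →₀ ℕ) :=
  (Finsupp.finite_of_degree_le (σ := σ) L).toFinset

lemma mem_box {L : ℕ} {α : σ →₀ ℕ} : α ∈ box σ L ↔ Finsupp.degree α ≤ L := by
  simp [box]

variable {C : Type*} [NormedField C]

/-- The monomial `Z^α`. -/
def mon (Z : σ → C) (α : σ →₀ ℕ) : C := ∏ i, Z i ^ α i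

lemma norm_mon_le {r : ℝ} {Z : σ → C} (hZ : ∀ i, ‖Z i‖ ≤ r) (α : σ →₀ ℕ) :
    ‖mon Z α‖ ≤ r ^ Finsupp.degree α := by
  simp only [mon, norm_prod, norm_pow, Finsupp.degree_eq_sum, ← prod_pow_eq_pow_sum]
  exact prod_le_prod (fun i _ => by positivity) fun i _ =>
    pow_le_pow_left₀ (norm_nonneg _) (hZ i) _

lemma mon_pow (Z : σ → C) (α : σ →₀ ℕ) (m : ℕ) : mon (fun i => Z i ^ m) α = mon Z α ^ m := by
  simp only [mon, ← prod_pow, ← pow_mul, mul_comm]

variable {a : (σ →₀ ℕ) → C}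

lemma norm_le_one_of_fixed {q : ℕ} (hq : 2 ≤ q) {x : C} (hx : x ^ q = x) : ‖x‖ ≤ 1 := by
  by_contra h
  rw [not_le] at h
  have : ‖x‖ ^ 1 < ‖x‖ ^ q := pow_lt_pow_right₀ h (by omega)
  rw [pow_one, ← norm_pow, hx] at this
  exact lt_irrefl _ this

lemma tendsto_term {r : ℝ} (hr0 : 0 ≤ r) (hr1 : r < 1) {Z : σ → C} (hZ : ∀ i, ‖Z i‖ ≤ r)
    (ha : ∀ α, ‖a α‖ ≤ 1) : Tendsto (fun α => a α * mon Z α) cofinite (𝓝 0) := by
  rw [NormedAddGroup.tendsto_nhds_zero]
  intro ε hε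
  obtain ⟨L, hL⟩ := exists_pow_lt_of_lt_one hε hr1
  refine eventually_cofinite.2 ((Finsupp.finite_of_degree_le (σ := σ) L).subset fun α hα => ?_)
  by_contra hdeg
  simp only [Set.mem_ofPred_eq, not_le] at hdeg
  apply hα
  calc ‖a α * mon Z α‖ ≤ 1 * r ^ Finsupp.degree α := by
        rw [norm_mul]
        exact mul_le_mul (ha α) (norm_mon_le hZ α) (norm_nonneg _) zero_le_one
    _ ≤ r ^ L := by rw [one_mul]; exact pow_le_pow_of_le_one hr0 hr1.le hdeg.le
    _ < ε := hL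

/-- Elements fixed by `x ↦ x^q`. -/
abbrev Fix (C : Type*) [Monoid C] (q : ℕ) : Type _ := {x : C // x ^ q = x}

variable [IsUltrametricDist C]

lemma norm_tail_le [CompleteSpace C] {r : ℝ} (hr0 : 0 ≤ r) (hr1 : r < 1) {Z : σ → C}
    (hZ : ∀ i, ‖Z i‖ ≤ r) (ha : ∀ α, ‖a α‖ ≤ 1) (L : ℕ) :
    ‖∑' α, a α * mon Z α - ∑ α ∈ box σ L, a α * mon Z α‖ ≤ r ^ (L + 1) := by
  classical
  have hs : Summable fun α => a α * mon Z α :=
    NonarchimedeanAddGroup.summable_of_tendsto_cofinite_zero (tendsto_term hr0 hr1 hZ ha)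
  rw [← hs.sum_add_tsum_subtype_compl (box σ L), add_sub_cancel_left]
  refine IsUltrametricDist.norm_tsum_le_of_forall_le_of_nonneg (by positivity) fun α => ?_
  have hα : L + 1 ≤ Finsupp.degree (α : σ →₀ ℕ) := by
    have := α.2
    simp only [mem_box] at this
    omega
  calc ‖a α * mon Z α‖ ≤ 1 * r ^ Finsupp.degree (α : σ →₀ ℕ) := by
        rw [norm_mul]
        exact mul_le_mul (ha α) (norm_mon_le hZ α) (norm_nonneg _) zero_le_one
    _ ≤ r ^ (L + 1) := by rw [one_mul]; exact pow_le_pow_of_le_one hr0 hr1.le hα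

/-- Detection: compactness of the space of coefficient systems with values in `F_q`. -/
theorem exists_detect [CompleteSpace C] {q : ℕ} (hq : 2 ≤ q) {r : ℝ} (hr0 : 0 < r) (hr1 : r < 1)
    (Λ : Set (σ → C)) (hΛ : ∀ Z ∈ Λ, ∀ i, ‖Z i‖ ≤ r) (α₀ : σ →₀ ℕ)
    (hK : ∀ a : (σ →₀ ℕ) → C, (∀ α, a α ^ q = a α) → a α₀ ≠ 0 →
      ∃ Z ∈ Λ, ∑' α, a α * mon Z α ≠ 0) :
    ∃ L, α₀ ∈ box σ L ∧ ∀ a : (σ →₀ ℕ) → C, (∀ α, a α ^ q = a α) → a α₀ ≠ 0 →
      ∃ Z ∈ Λ, r ^ (L + 1) < ‖∑ α ∈ box σ L, a α * mon Z α‖ := by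
  classical
  by_contra hcon
  push Not at hcon
  let L₀ := Finsupp.degree α₀
  have : Finite (Fix C q) := by
    refine Set.Finite.to_subtype (s := {x : C | x ^ q = x}) ?_
    have hne : (Polynomial.X ^ q - Polynomial.X : Polynomial C) ≠ 0 := by
      intro h0
      have := congrArg (fun P => Polynomial.coeff P q) h0
      simp [Polynomial.coeff_X_pow, Polynomial.coeff_X, show 1 ≠ q by omega] at this
    exact (Polynomial.finite_setOfPred_isRoot hne).subset fun x hx => by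
      simp only [Set.mem_ofPred_eq] at hx ⊢
      simp [hx]
  let S : ℕ → Set ((σ →₀ ℕ) → Fix C q) := fun m =>
    {a | (a α₀ : C) ≠ 0 ∧ ∀ Z ∈ Λ,
      ‖∑ α ∈ box σ (L₀ + m), (a α : C) * mon Z α‖ ≤ r ^ (L₀ + m + 1)}
  have hnorm : ∀ (a : (σ →₀ ℕ) → Fix C q) α, ‖(a α : C)‖ ≤ 1 := fun a α =>
    norm_le_one_of_fixed hq (a α).2
  have hclosed : ∀ m, IsClosed (S m) := fun m => by
    simp only [S, Set.ofPred_and, Set.ofPred_forall]
    refine IsClosed.inter ?_ ?_
    · exact IsClosed.preimage (f := fun a : (σ →₀ ℕ) → Fix C q => a α₀) (continuous_apply α₀)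
        (Set.toFinite {x : Fix C q | (x : C) ≠ 0}).isClosed
    refine isClosed_iInter fun Z => isClosed_iInter fun _ => isClosed_le ?_ continuous_const
    exact (continuous_finsetSum _ fun α _ =>
      (continuous_subtype_val.comp (continuous_apply α)).mul continuous_const).norm
  have hne : ∀ m, (S m).Nonempty := fun m => by
    obtain ⟨a, ha, ha0, hZ⟩ := hcon (L₀ + m) (mem_box.2 (by simp [L₀]))
    exact ⟨fun α => ⟨a α, ha α⟩, ha0, hZ⟩
  have hmono : ∀ m, S (m + 1) ⊆ S m := fun m a ⟨ha0, ha⟩ => by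
    refine ⟨ha0, fun Z hZ => ?_⟩
    have hsub : box σ (L₀ + m) ⊆ box σ (L₀ + (m + 1)) := fun α hα => by
      rw [mem_box] at hα ⊢
      omega
    have hrest : ‖∑ α ∈ box σ (L₀ + (m + 1)) \ box σ (L₀ + m), (a α : C) * mon Z α‖
        ≤ r ^ (L₀ + m + 1) := by
      refine IsUltrametricDist.norm_sum_le_of_forall_le_of_nonneg (by positivity) fun α hα => ?_
      simp only [Finset.mem_sdiff, mem_box, not_le] at hα
      calc ‖(a α : C) * mon Z α‖ ≤ 1 * r ^ Finsupp.degree α := by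
            rw [norm_mul]
            exact mul_le_mul (hnorm a α) (norm_mon_le (hΛ Z hZ) α) (norm_nonneg _) zero_le_one
        _ ≤ r ^ (L₀ + m + 1) := by
            rw [one_mul]; exact pow_le_pow_of_le_one hr0.le hr1.le hα.2
    have hall := (ha Z hZ).trans
      (pow_le_pow_of_le_one hr0.le hr1.le (show L₀ + m + 1 ≤ L₀ + (m + 1) + 1 by omega))
    rw [← Finset.sum_sdiff hsub] at hall
    have := IsUltrametricDist.norm_add_le_max
      (∑ α ∈ box σ (L₀ + (m + 1)) \ box σ (L₀ + m), (a α : C) * mon Z α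
        + ∑ α ∈ box σ (L₀ + m), (a α : C) * mon Z α)
      (-∑ α ∈ box σ (L₀ + (m + 1)) \ box σ (L₀ + m), (a α : C) * mon Z α)
    rw [add_neg_cancel_comm, norm_neg] at this
    exact this.trans (max_le hall hrest)
  obtain ⟨a, ha⟩ := IsCompact.nonempty_iInter_of_sequence_nonempty_isCompact_isClosed S hmono hne
    (hclosed 0).isCompact hclosed
  rw [Set.mem_iInter] at ha
  obtain ⟨Z, hZ, hsum⟩ := hK (fun α => a α) (fun α => (a α).2) (ha 0).1
  apply hsum
  have hle : ∀ m : ℕ, ‖∑' α, (a α : C) * mon Z α‖ ≤ r ^ (L₀ + m + 1) := fun m => by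
    have h1 := norm_tail_le hr0.le hr1 (hΛ Z hZ) (hnorm a) (L₀ + m)
    have h2 := IsUltrametricDist.norm_add_le_max
      (∑' α, (a α : C) * mon Z α - ∑ α ∈ box σ (L₀ + m), (a α : C) * mon Z α)
      (∑ α ∈ box σ (L₀ + m), (a α : C) * mon Z α)
    rw [sub_add_cancel] at h2
    exact h2.trans (max_le h1 ((ha m).2 Z hZ))
  by_contra h0
  obtain ⟨m, hm⟩ := exists_pow_lt_of_lt_one (norm_pos_iff.2 h0) hr1
  exact absurd ((hle m).trans (pow_le_pow_of_le_one hr0.le hr1.le (by omega))) (not_le.2 hm)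

end Vale.Agent.P217.Rigidity
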