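import Vale.Agent.P217.Rigidity.Zero
import Vale.Agent.P217.Targets

/-!
# P217: the rigidity target

Compactness picks finitely many test points, so the radius and the truncation degree are uniform.
-/

namespace Vale.Agent.P217

open MvPowerSeries Filter Topology

namespace Rigidity

variable {σ : Type*} [Fintype σ] {C : Type*} [NormedField C]

/-- The two monomial conventions agree. -/
lemma mon_eq (Z : σ → C) (α : σ →₀ ℕ) : Vale.Agent.P217.mon Z α = mon Z α :=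
  Finsupp.prod_fintype _ _ fun _ => pow_zero _

omit [Fintype σ] in
lemma deg_eq (α : σ →₀ ℕ) : deg α = Finsupp.degree α := rfl

variable [IsUltrametricDist C] [CompleteSpace C]

/-- Detection at finitely many points, with one radius and one degree. -/
theorem exists_finite_detect {q : ℕ} (hq : 2 ≤ q) (Λ : Set (σ → C)) (hΛ : ∀ Z ∈ Λ, Small Z)
    (α₀ : σ →₀ ℕ)
    (hK : ∀ a : (σ →₀ ℕ) → C, (∀ α, a α ^ q = a α) → a α₀ ≠ 0 →
      ∃ Z ∈ Λ, ∑' α, a α * mon Z α ≠ 0) :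
    ∃ (S : Finset (σ → C)) (r : ℝ) (L : ℕ), ↑S ⊆ Λ ∧ 0 < r ∧ r < 1 ∧
      (∀ Z ∈ S, ∀ i, ‖Z i‖ ≤ r) ∧ α₀ ∈ box σ L ∧
      ∀ a : (σ →₀ ℕ) → C, (∀ α, a α ^ q = a α) → a α₀ ≠ 0 →
        ∃ Z ∈ (S : Set (σ → C)), r ^ (L + 1) < ‖∑ α ∈ box σ L, a α * mon Z α‖ := by
  classical
  have : Finite (Fix C q) := by
    refine Set.Finite.to_subtype (s := {x : C | x ^ q = x}) ?_
    have hne : (Polynomial.X ^ q - Polynomial.X : Polynomial C) ≠ 0 := by
      intro h0
      have := congrArg (fun P => Polynomial.coeff P q) h0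
      simp [Polynomial.coeff_X_pow, Polynomial.coeff_X, show 1 ≠ q by omega] at this
    exact (Polynomial.finite_setOfPred_isRoot hne).subset fun x hx => by
      simp only [Set.mem_ofPred_eq] at hx ⊢
      simp [hx]
  let rad : (σ → C) → ℝ := fun Z => Finset.univ.fold max (1 / 2) fun i => ‖Z i‖
  have hrad0 : ∀ Z, 0 < rad Z := fun Z =>
    one_half_pos.trans_le (Finset.fold_max_le (rad Z) |>.1 le_rfl).1
  have hradle : ∀ Z i, ‖Z i‖ ≤ rad Z := fun Z i =>
    (Finset.fold_max_le (rad Z) |>.1 le_rfl).2 i (Finset.mem_univ i)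
  have hrad1 : ∀ Z ∈ Λ, rad Z < 1 := fun Z hZ =>
    Finset.fold_max_lt 1 |>.2 ⟨by norm_num, fun i _ => hΛ Z hZ i⟩
  let U : Λ × ℕ → Set ((σ →₀ ℕ) → Fix C q) := fun x =>
    {a | rad x.1 ^ (x.2 + 1) < ‖∑ α ∈ box σ x.2, (a α : C) * mon (x.1 : σ → C) α‖}
  have hnorm : ∀ (a : (σ →₀ ℕ) → Fix C q) α, ‖(a α : C)‖ ≤ 1 := fun a α =>
    norm_le_one_of_fixed hq (a α).2
  have hU : ∀ x, IsOpen (U x) := fun x =>
    isOpen_lt continuous_const (continuous_finsetSum _ fun α _ =>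
      (continuous_subtype_val.comp (continuous_apply α)).mul continuous_const).norm
  have hcl : IsClosed {a : (σ →₀ ℕ) → Fix C q | (a α₀ : C) ≠ 0} :=
    IsClosed.preimage (f := fun a : (σ →₀ ℕ) → Fix C q => a α₀) (continuous_apply α₀)
      (Set.toFinite {x : Fix C q | (x : C) ≠ 0}).isClosed
  have hcov : {a : (σ →₀ ℕ) → Fix C q | (a α₀ : C) ≠ 0} ⊆ ⋃ x, U x := fun a ha => by
    obtain ⟨Z, hZ, hne⟩ := hK (fun α => a α) (fun α => (a α).2) ha
    obtain ⟨m, hm⟩ := exists_pow_lt_of_lt_one (norm_pos_iff.2 hne) (hrad1 Z hZ)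
    refine Set.mem_iUnion.2 ⟨(⟨Z, hZ⟩, m), ?_⟩
    have htail := norm_tail_le (hrad0 Z).le (hrad1 Z hZ) (hradle Z) (hnorm a) m
    have hlt : rad Z ^ (m + 1) < ‖∑' α, (a α : C) * mon Z α‖ :=
      (pow_le_pow_of_le_one (hrad0 Z).le (hrad1 Z hZ).le m.le_succ).trans_lt hm
    change rad Z ^ (m + 1) < ‖∑ α ∈ box σ m, (a α : C) * mon Z α‖
    by_contra hcon
    rw [not_lt] at hcon
    have h2 := IsUltrametricDist.norm_add_le_max
      (∑' α, (a α : C) * mon Z α - ∑ α ∈ box σ m, (a α : C) * mon Z α)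
      (∑ α ∈ box σ m, (a α : C) * mon Z α)
    rw [sub_add_cancel] at h2
    exact absurd (h2.trans (max_le htail hcon)) (not_le.2 hlt)
  obtain ⟨t, ht⟩ := hcl.isCompact.elim_finite_subcover U hU hcov
  let r := t.fold max (1 / 2) fun x => rad x.1
  have hr : (1 / 2 : ℝ) ≤ r ∧ ∀ x ∈ t, rad x.1 ≤ r := Finset.fold_max_le r |>.1 le_rfl
  have hr0 : 0 < r := one_half_pos.trans_le hr.1
  have hr1 : r < 1 := Finset.fold_max_lt 1 |>.2 ⟨by norm_num, fun x _ => hrad1 _ x.1.2⟩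
  have hev : ∀ᶠ L in atTop, α₀ ∈ box σ L ∧
      ∀ x ∈ t, x.2 ≤ L ∧ r ^ (L + 1) < rad x.1 ^ (x.2 + 1) := by
    refine ((eventually_ge_atTop (Finsupp.degree α₀)).mono fun L hL => mem_box.2 hL).and ?_
    rw [Finset.eventually_all]
    intro x _
    refine (eventually_ge_atTop x.2).and ?_
    exact ((tendsto_pow_atTop_nhds_zero_of_lt_one hr0.le hr1).comp
      (tendsto_add_atTop_nat 1)).eventually (gt_mem_nhds (pow_pos (hrad0 _) _))
  obtain ⟨L, hα₀, hL⟩ := hev.exists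
  refine ⟨t.image fun x => (x.1 : σ → C), r, L, ?_, hr0, hr1, ?_, hα₀, fun a ha ha0 => ?_⟩
  · intro Z hZ
    obtain ⟨x, -, rfl⟩ := Finset.mem_image.1 (Finset.mem_coe.1 hZ)
    exact x.1.2
  · intro Z hZ i
    obtain ⟨x, hx, rfl⟩ := Finset.mem_image.1 hZ
    exact (hradle _ i).trans (hr.2 x hx)
  · obtain ⟨x, hx, hxa⟩ : ∃ x ∈ t, (fun α => (⟨a α, ha α⟩ : Fix C q)) ∈ U x := by
      simpa [Set.mem_iUnion] using ht (show (fun α => (⟨a α, ha α⟩ : Fix C q)) ∈ _ from ha0)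
    obtain ⟨hxL, hxr⟩ := hL x hx
    refine ⟨x.1, Finset.mem_coe.2 (Finset.mem_image.2 ⟨x, hx, rfl⟩), hxr.trans_le ?_⟩
    change rad x.1 ^ (x.2 + 1) < ‖∑ α ∈ box σ x.2, a α * mon (x.1 : σ → C) α‖ at hxa
    by_contra hcon
    rw [not_le] at hcon
    have hsub : box σ x.2 ⊆ box σ L := fun α hα => by
      rw [mem_box] at hα ⊢
      omega
    have hrest : ‖∑ α ∈ box σ L \ box σ x.2, a α * mon (x.1 : σ → C) α‖
        ≤ rad x.1 ^ (x.2 + 1) := by
      refine IsUltrametricDist.norm_sum_le_of_forall_le_of_nonneg (pow_nonneg (hrad0 _).le _)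
        fun α hα => ?_
      simp only [Finset.mem_sdiff, mem_box, not_le] at hα
      rw [norm_mul]
      calc ‖a α‖ * ‖mon (x.1 : σ → C) α‖ ≤ 1 * rad x.1 ^ Finsupp.degree α :=
            mul_le_mul (norm_le_one_of_fixed hq (ha α)) (norm_mon_le (hradle _) α) (norm_nonneg _)
              zero_le_one
        _ ≤ rad x.1 ^ (x.2 + 1) := by
            rw [one_mul]
            exact pow_le_pow_of_le_one (hrad0 _).le (hrad1 _ x.1.2).le hα.2
    rw [← Finset.sum_sdiff hsub] at hcon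
    have h2 := IsUltrametricDist.norm_add_le_max
      (∑ α ∈ box σ L \ box σ x.2, a α * mon (x.1 : σ → C) α
        + ∑ α ∈ box σ x.2, a α * mon (x.1 : σ → C) α)
      (-∑ α ∈ box σ L \ box σ x.2, a α * mon (x.1 : σ → C) α)
    rw [add_neg_cancel_comm, norm_neg] at h2
    exact absurd (h2.trans (max_le hcon.le hrest)) (not_le.2 hxa)

end Rigidity

/-- The rigidity target. -/
theorem rigidityTarget : RigidityTarget := by
  intro p _ C _ _ _ _ m d hm Λ hΛ β hK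
  have hp : p.Prime := Fact.out
  have hm' : m ≠ 0 := by omega
  have hq : 2 ≤ p ^ m := hp.two_le.trans (Nat.le_self_pow hm' p)
  obtain ⟨S, r, L, hS, hr0, hr1, hSr, hβ, hdet⟩ :=
    Rigidity.exists_finite_detect hq Λ hΛ β fun a ha ha0 => by
      by_contra hcon
      push Not at hcon
      refine ha0 (hK a ha fun Z hZ => ?_)
      change ∑' α, a α * mon Z α = 0
      simpa only [Rigidity.mon_eq] using hcon Z hZ
  refine ⟨S, hS, r ^ (L + 1), pow_pos hr0 _, pow_lt_one₀ hr0.le hr1 (by omega),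
    fun G B R hG hsmall => ?_⟩
  refine Rigidity.coeff_eq_zero hm' hr0 hr1 S (fun Z hZ i => hSr Z hZ i) β hβ hdet
    (fun α => coeff α G) (K₀ := |B|) (B := |R|) (abs_nonneg R) (fun α => ?_) fun Z hZ => ?_
  · calc ‖coeff α G‖ ≤ |B * R ^ deg α| := (hG α).trans (le_abs_self _)
      _ = |B| * |R| ^ Finsupp.degree α := by rw [abs_mul, abs_pow, Rigidity.deg_eq]
  · obtain ⟨N₀, hN₀⟩ := eventually_atTop.1 (hsmall Z hZ)
    exact ⟨1, N₀, fun N hN => by simpa only [one_mul, ev, Rigidity.mon_eq] using hN₀ N hN⟩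

end Vale.Agent.P217
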