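import Mathlib.Analysis.Normed.Field.Basic
import Mathlib.Analysis.Normed.Ring.Ultra
import Mathlib.Algebra.CharP.Lemmas
import Mathlib.Analysis.SpecificLimits.Normed

/-!
# P217 B4: the rigidity core

If `∑ c_α (e_α)^(q^N)` is `O(δ^(q^N))` and every `F_q`-combination with nonzero `α₀` coefficient of
the `e_α` is somewhere bigger than `δ`, then `c_α₀ = 0`.
-/

namespace Vale.Agent.P217.Rigidity

open Finset

variable {C : Type*} [NormedField C] {p : ℕ} [Fact p.Prime] [CharP C p]
variable {A Z : Type*}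

/-- A combination with coefficients fixed by `x ↦ x^q` commutes with `q^N`-th powers. -/
lemma sum_pow_of_fixed {h : ℕ} (s : Finset A) (a e : A → C) (ha : ∀ i ∈ s, a i ^ p ^ h = a i)
    (N : ℕ) : (∑ i ∈ s, a i * e i) ^ (p ^ h) ^ N = ∑ i ∈ s, a i * e i ^ (p ^ h) ^ N := by
  rw [← pow_mul, sum_pow_char_pow]
  refine sum_congr rfl fun i hi => ?_
  rw [mul_pow, pow_mul]
  congr 1
  induction N with
  | zero => simp
  | succ N ih => rw [pow_succ, pow_mul, ih, ha i hi]

lemma exists_tail_lt {x δ K : ℝ} (hδ : 0 < δ) (hx : δ < x) {q : ℕ} (hq : 2 ≤ q) (N₀ : ℕ) :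
    ∃ N, N₀ ≤ N ∧ K * δ ^ q ^ N < x ^ q ^ N := by
  have h1 : 1 < x / δ := by rwa [one_lt_div hδ]
  obtain ⟨m, hm⟩ := pow_unbounded_of_one_lt K h1
  refine ⟨max N₀ m, le_max_left _ _, ?_⟩
  have hle : m ≤ q ^ max N₀ m :=
    (le_max_right N₀ m).trans (Nat.lt_pow_self (by omega : 1 < q)).le
  have h2 : K < (x / δ) ^ q ^ max N₀ m := hm.trans_le (pow_le_pow_right₀ h1.le hle)
  rw [div_pow, lt_div_iff₀ (pow_pos hδ _)] at h2
  exact h2

/-- The rigidity core. `Z` is the set of test points. -/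
theorem coeff_eq_zero_of_small [IsUltrametricDist C] {h : ℕ} (hh : h ≠ 0) {δ : ℝ} (hδ : 0 < δ)
    (s : Finset A) (e : A → Z → C) (α₀ : A) (c : A → C)
    (hbig : ∀ a : A → C, (∀ i, a i ^ p ^ h = a i) → a α₀ ≠ 0 →
      ∃ z, δ < ‖∑ i ∈ s, a i * e i z‖)
    (hsmall : ∀ z, ∃ K : ℝ, ∃ N₀ : ℕ, ∀ N, N₀ ≤ N →
      ‖∑ i ∈ s, c i * e i z ^ (p ^ h) ^ N‖ ≤ K * δ ^ (p ^ h) ^ N) :
    α₀ ∈ s → c α₀ = 0 := by
  classical
  have hp : p.Prime := Fact.out
  have hq : 2 ≤ p ^ h := hp.two_le.trans (Nat.le_self_pow hh p)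
  induction s using Finset.strongInduction generalizing c with
  | _ s ih =>
    intro hmem
    by_contra hc0
    by_cases hfix : ∀ i ∈ s, (c i / c α₀) ^ p ^ h = c i / c α₀
    · -- all coefficients are `F_q`-multiples of `c α₀`
      let a : A → C := fun i => if i ∈ s then c i / c α₀ else 0
      have ha : ∀ i, a i ^ p ^ h = a i := fun i => by
        by_cases hi : i ∈ s
        · simpa [a, hi] using hfix i hi
        · simp [a, hi, hp.ne_zero]
      have ha0 : a α₀ ≠ 0 := by simp [a, hmem, hc0]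
      obtain ⟨z, hz⟩ := hbig a ha ha0
      obtain ⟨K, N₀, hK⟩ := hsmall z
      obtain ⟨N, hN, hlt⟩ := exists_tail_lt (K := K / ‖c α₀‖) hδ hz hq N₀
      have heq : ∑ i ∈ s, c i * e i z ^ (p ^ h) ^ N
          = c α₀ * (∑ i ∈ s, a i * e i z) ^ (p ^ h) ^ N := by
        rw [sum_pow_of_fixed s a (fun i => e i z) (fun i _ => ha i), mul_sum]
        refine sum_congr rfl fun i hi => ?_
        simp [a, hi, ← mul_assoc, mul_div_cancel₀ _ hc0]
      have h1 := hK N hN
      rw [heq, norm_mul, norm_pow] at h1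
      have hn : 0 < ‖c α₀‖ := norm_pos_iff.2 hc0
      rw [div_mul_eq_mul_div, div_lt_iff₀ hn] at hlt
      nlinarith
    · -- eliminate a coefficient which is not an `F_q`-multiple
      push Not at hfix
      obtain ⟨j, hj, hjne⟩ := hfix
      have hcj : c j ≠ 0 := fun h0 => hjne (by simp [h0, hp.ne_zero])
      have hjα : j ≠ α₀ := fun h0 => hjne (by simp [h0, div_self hc0])
      let c' : A → C := fun i => c j ^ (p ^ h - 1) * c i - c i ^ p ^ h
      have hc' : c' α₀ ≠ 0 := by
        intro h0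
        apply hjne
        have h1 : c j ^ (p ^ h - 1) * c α₀ = c α₀ ^ p ^ h := sub_eq_zero.1 h0
        have h2 : c j ^ p ^ h = c j ^ (p ^ h - 1) * c j := by
          rw [← pow_succ, Nat.sub_add_cancel (by omega : 1 ≤ p ^ h)]
        rw [div_pow, div_eq_div_iff (pow_ne_zero _ hc0) hc0, h2, ← h1]
        ring
      refine hc' (ih (s.erase j) (erase_ssubset hj) c' (fun a ha ha0 => ?_) (fun z => ?_)
        (mem_erase.2 ⟨hjα.symm, hmem⟩))
      · let a' : A → C := fun i => if i = j then 0 else a i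
        have ha' : ∀ i, a' i ^ p ^ h = a' i := fun i => by
          by_cases hi : i = j
          · simp [a', hi, hp.ne_zero]
          · simpa [a', hi] using ha i
        obtain ⟨z, hz⟩ := hbig a' ha' (by simpa [a', hjα.symm] using ha0)
        refine ⟨z, ?_⟩
        rw [← add_sum_erase _ _ hj] at hz
        simp only [a', if_pos rfl, zero_mul, zero_add] at hz
        rwa [sum_congr rfl fun i hi => by rw [if_neg (ne_of_mem_erase hi)]] at hz
      · obtain ⟨K, N₀, hK⟩ := hsmall z
        set q := p ^ h with hqdef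
        refine ⟨max (‖c j‖ ^ (q - 1) * K) (max K 0 ^ q), N₀ + 1, fun N hN => ?_⟩
        obtain ⟨M, rfl⟩ : ∃ M, N = M + 1 := ⟨N - 1, by omega⟩
        have hsplit : ∑ i ∈ s.erase j, c' i * e i z ^ q ^ (M + 1)
            = c j ^ (q - 1) * (∑ i ∈ s, c i * e i z ^ q ^ (M + 1))
              - (∑ i ∈ s, c i * e i z ^ q ^ M) ^ q := by
          have hz0 : c' j = 0 := by
            simp only [c', ← pow_succ, Nat.sub_add_cancel (Nat.one_le_pow h p hp.pos), sub_self]
          rw [sum_erase_eq_sub hj, hz0, zero_mul, sub_zero, mul_sum, hqdef, sum_pow_char_pow,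
            ← sum_sub_distrib]
          refine sum_congr rfl fun i _ => ?_
          have he : (e i z ^ (p ^ h) ^ M) ^ p ^ h = e i z ^ (p ^ h) ^ (M + 1) := by
            rw [pow_succ (p ^ h) M, pow_mul]
          rw [mul_pow, he]
          simp only [c']
          ring
        rw [hsplit]
        have hpow : (δ ^ q ^ M) ^ q = δ ^ q ^ (M + 1) := by rw [← pow_mul, ← pow_succ]
        have hδ' : 0 ≤ δ ^ q ^ (M + 1) := by positivity
        calc ‖c j ^ (q - 1) * (∑ i ∈ s, c i * e i z ^ q ^ (M + 1))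
              - (∑ i ∈ s, c i * e i z ^ q ^ M) ^ q‖
            ≤ max ‖c j ^ (q - 1) * (∑ i ∈ s, c i * e i z ^ q ^ (M + 1))‖
                ‖(∑ i ∈ s, c i * e i z ^ q ^ M) ^ q‖ := by
              simpa [sub_eq_add_neg] using IsUltrametricDist.norm_add_le_max
                (c j ^ (q - 1) * (∑ i ∈ s, c i * e i z ^ q ^ (M + 1)))
                (-((∑ i ∈ s, c i * e i z ^ q ^ M) ^ q))
          _ ≤ max (‖c j‖ ^ (q - 1) * K) (max K 0 ^ q) * δ ^ q ^ (M + 1) := by
              rw [max_mul_of_nonneg _ _ hδ', norm_mul, norm_pow, norm_pow, mul_assoc, ← hpow]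
              refine max_le_max ?_ ?_
              · rw [hpow]
                exact mul_le_mul_of_nonneg_left (hK _ (by omega)) (by positivity)
              · rw [← mul_pow]
                refine pow_le_pow_left₀ (norm_nonneg _) ((hK _ (by omega)).trans ?_) _
                exact mul_le_mul_of_nonneg_right (le_max_left _ _) (by positivity)

end Vale.Agent.P217.Rigidity
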