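import Vale.Agent.P217.Rigidity.Detect

/-!
# P217 B4: coefficient vanishing

A series with geometrically bounded coefficients whose values at `Z^(q^N)` are `O(δ^(q^N))`, `δ` a
detection level of `Λ`, has vanishing `α₀` coefficient.
-/

namespace Vale.Agent.P217.Rigidity

open Finset Filter Topology

variable {σ : Type*} [Fintype σ] {C : Type*} [NormedField C] [IsUltrametricDist C] [CompleteSpace C]

omit [IsUltrametricDist C] [CompleteSpace C] in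
lemma norm_coeff_mul_mon_le {K B ρ : ℝ} {c : (σ →₀ ℕ) → C} (hB : 0 ≤ B) (hρ : 0 ≤ ρ)
    (hc : ∀ α, ‖c α‖ ≤ K * B ^ Finsupp.degree α) {Z : σ → C} (hZ : ∀ i, ‖Z i‖ ≤ ρ)
    {L : ℕ} (hBρ : B * ρ ≤ 1) {α : σ →₀ ℕ} (hα : L ≤ Finsupp.degree α) :
    ‖c α * mon Z α‖ ≤ K * (B * ρ) ^ L := by
  have hK : 0 ≤ K := by simpa using (norm_nonneg (c 0)).trans (hc 0)
  rw [norm_mul]
  calc ‖c α‖ * ‖mon Z α‖ ≤ (K * B ^ Finsupp.degree α) * ρ ^ Finsupp.degree α := by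
        exact mul_le_mul (hc α) (norm_mon_le hZ α) (norm_nonneg _) (by positivity)
    _ = K * (B * ρ) ^ Finsupp.degree α := by rw [mul_pow, mul_assoc]
    _ ≤ K * (B * ρ) ^ L :=
        mul_le_mul_of_nonneg_left (pow_le_pow_of_le_one (by positivity) hBρ hα) hK

/-- The lemma of B4. -/
theorem coeff_eq_zero {p h : ℕ} [Fact p.Prime] [CharP C p] (hh : h ≠ 0) {r : ℝ} (hr0 : 0 < r)
    (hr1 : r < 1) (Λ : Set (σ → C)) (hΛ : ∀ Z ∈ Λ, ∀ i, ‖Z i‖ ≤ r) (α₀ : σ →₀ ℕ) {L : ℕ}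
    (hα₀ : α₀ ∈ box σ L)
    (hdet : ∀ a : (σ →₀ ℕ) → C, (∀ α, a α ^ p ^ h = a α) → a α₀ ≠ 0 →
      ∃ Z ∈ Λ, r ^ (L + 1) < ‖∑ α ∈ box σ L, a α * mon Z α‖)
    (c : (σ →₀ ℕ) → C) {K₀ B : ℝ} (hB : 0 ≤ B) (hc : ∀ α, ‖c α‖ ≤ K₀ * B ^ Finsupp.degree α)
    (hsmall : ∀ Z ∈ Λ, ∃ K : ℝ, ∃ N₀ : ℕ, ∀ N, N₀ ≤ N →
      ‖∑' α, c α * mon (fun i => Z i ^ (p ^ h) ^ N) α‖ ≤ K * (r ^ (L + 1)) ^ (p ^ h) ^ N) :
    c α₀ = 0 := by
  classical
  have hp : p.Prime := Fact.out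
  have hq : 2 ≤ p ^ h := hp.two_le.trans (Nat.le_self_pow hh p)
  refine coeff_eq_zero_of_small (Z := Λ) hh (pow_pos hr0 (L + 1)) (box σ L)
    (fun α Z => mon (Z : σ → C) α) α₀ c (fun a ha ha0 => ?_) (fun Z => ?_) hα₀
  · obtain ⟨Z, hZ, h1⟩ := hdet a ha ha0
    exact ⟨⟨Z, hZ⟩, h1⟩
  · obtain ⟨Z, hZ⟩ := Z
    obtain ⟨K, N₀, hK⟩ := hsmall Z hZ
    obtain ⟨m, hm⟩ := exists_pow_lt_of_lt_one (show 0 < 1 / (B + 1) by positivity) hr1
    refine ⟨max K (K₀ * B ^ (L + 1)), max N₀ m, fun N hN => ?_⟩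
    have hmN : m ≤ (p ^ h) ^ N :=
      (le_max_right N₀ m).trans (hN.trans (Nat.lt_pow_self (by omega : 1 < p ^ h)).le)
    set Q := (p ^ h) ^ N with hQ
    have hρ : 0 ≤ r ^ Q := by positivity
    have hBρ : B * r ^ Q < 1 := by
      have h2 : r ^ Q < 1 / (B + 1) := (pow_le_pow_of_le_one hr0.le hr1.le hmN).trans_lt hm
      rw [lt_div_iff₀ (by positivity)] at h2
      nlinarith
    have hZQ : ∀ i, ‖Z i ^ Q‖ ≤ r ^ Q := fun i => by
      rw [norm_pow]; exact pow_le_pow_left₀ (norm_nonneg _) (hΛ Z hZ i) _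
    have hterm : ∀ {l : ℕ} {α : σ →₀ ℕ}, l ≤ Finsupp.degree α →
        ‖c α * mon (fun i => Z i ^ Q) α‖ ≤ K₀ * (B * r ^ Q) ^ l := fun hl =>
      norm_coeff_mul_mon_le hB hρ hc hZQ hBρ.le hl
    have hs : Summable fun α => c α * mon (fun i => Z i ^ Q) α := by
      refine NonarchimedeanAddGroup.summable_of_tendsto_cofinite_zero ?_
      rw [NormedAddGroup.tendsto_nhds_zero]
      intro ε hε
      have hpos : 0 ≤ B * r ^ Q := by positivity
      have ht : Tendsto (fun l : ℕ => K₀ * (B * r ^ Q) ^ l) atTop (𝓝 0) := by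
        simpa using (tendsto_pow_atTop_nhds_zero_of_lt_one hpos hBρ).const_mul K₀
      obtain ⟨l, hl⟩ := (ht.eventually (gt_mem_nhds hε)).exists
      refine eventually_cofinite.2 ((Finsupp.finite_of_degree_le (σ := σ) l).subset fun α hα => ?_)
      by_contra hdeg
      simp only [Set.mem_ofPred_eq, not_le] at hdeg
      exact hα ((hterm hdeg.le).trans_lt hl)
    have hpow : (B * r ^ Q) ^ (L + 1) = B ^ (L + 1) * (r ^ (L + 1)) ^ Q := by
      rw [mul_pow, ← pow_mul, ← pow_mul, mul_comm Q]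
    have hd : 0 ≤ (r ^ (L + 1)) ^ Q := by positivity
    have htail : ‖∑' α : ↥((box σ L : Set (σ →₀ ℕ))ᶜ), c α * mon (fun i => Z i ^ Q) α‖
        ≤ K₀ * B ^ (L + 1) * (r ^ (L + 1)) ^ Q := by
      have hK₀ : 0 ≤ K₀ := by simpa using (norm_nonneg (c 0)).trans (hc 0)
      refine IsUltrametricDist.norm_tsum_le_of_forall_le_of_nonneg (by positivity) fun α => ?_
      have hα : L + 1 ≤ Finsupp.degree (α : σ →₀ ℕ) := by
        have := α.2
        simp only [Set.mem_compl_iff, Finset.mem_coe, mem_box] at this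
        omega
      exact (hterm hα).trans_eq (by rw [hpow, mul_assoc])
    have hsum : ∑ i ∈ box σ L, c i * mon Z i ^ Q
        = ∑' α, c α * mon (fun i => Z i ^ Q) α
          - ∑' α : ↥((box σ L : Set (σ →₀ ℕ))ᶜ), c α * mon (fun i => Z i ^ Q) α := by
      rw [← hs.sum_add_tsum_compl, add_sub_cancel_right]
      simp only [mon_pow]
    rw [hsum]
    have h3 := IsUltrametricDist.norm_add_le_max (∑' α, c α * mon (fun i => Z i ^ Q) α)
      (-∑' α : ↥((box σ L : Set (σ →₀ ℕ))ᶜ), c α * mon (fun i => Z i ^ Q) α)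
    rw [← sub_eq_add_neg, norm_neg] at h3
    rw [max_mul_of_nonneg _ _ hd]
    exact h3.trans (max_le_max (hK N ((le_max_left _ _).trans hN)) htail)

end Vale.Agent.P217.Rigidity
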