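import Vale.Agent.P217.Rigidity.Vanish

/-!
# P217 B5: series with coefficients in `C` vanishing on `Λ`

If `Λ` is stable under `Z ↦ Z^q` and no series over `F_q` with nonzero `α₀` coefficient vanishes on
`Λ`, then no geometrically bounded series over `C` vanishing on `Λ` has a nonzero `α₀` coefficient.
-/

namespace Vale.Agent.P217.Rigidity

open Finset

variable {σ : Type*} [Fintype σ] {C : Type*} [NormedField C] [IsUltrametricDist C] [CompleteSpace C]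

omit [IsUltrametricDist C] [CompleteSpace C] [Fintype σ] in
lemma pow_mem_of_stable {q : ℕ} {Λ : Set (σ → C)} (hst : ∀ Z ∈ Λ, (fun i => Z i ^ q) ∈ Λ)
    {Z : σ → C} (hZ : Z ∈ Λ) : ∀ N : ℕ, (fun i => Z i ^ q ^ N) ∈ Λ
  | 0 => by simpa using hZ
  | N + 1 => by
    have h := hst _ (pow_mem_of_stable hst hZ N)
    simpa [← pow_mul, ← pow_succ] using h

/-- Values small along `Z ↦ Z^(q^N)` for every detection level force the coefficient to vanish. -/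
theorem coeff_eq_zero_of_forall_small {p h : ℕ} [Fact p.Prime] [CharP C p] (hh : h ≠ 0) {r : ℝ}
    (hr0 : 0 < r) (hr1 : r < 1) (Λ : Set (σ → C)) (hΛ : ∀ Z ∈ Λ, ∀ i, ‖Z i‖ ≤ r) (α₀ : σ →₀ ℕ)
    (hK : ∀ a : (σ →₀ ℕ) → C, (∀ α, a α ^ p ^ h = a α) → a α₀ ≠ 0 →
      ∃ Z ∈ Λ, ∑' α, a α * mon Z α ≠ 0) :
    ∃ L : ℕ, ∀ (c : (σ →₀ ℕ) → C) (K₀ B : ℝ), 0 ≤ B →
      (∀ α, ‖c α‖ ≤ K₀ * B ^ Finsupp.degree α) →
      (∀ Z ∈ Λ, ∃ K : ℝ, ∃ N₀ : ℕ, ∀ N, N₀ ≤ N →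
        ‖∑' α, c α * mon (fun i => Z i ^ (p ^ h) ^ N) α‖ ≤ K * (r ^ (L + 1)) ^ (p ^ h) ^ N) →
      c α₀ = 0 := by
  have hp : p.Prime := Fact.out
  have hq : 2 ≤ p ^ h := hp.two_le.trans (Nat.le_self_pow hh p)
  obtain ⟨L, hα₀, hdet⟩ := exists_detect hq hr0 hr1 Λ hΛ α₀ hK
  exact ⟨L, fun c K₀ B hB hc hs => coeff_eq_zero hh hr0 hr1 Λ hΛ α₀ hα₀ hdet c hB hc hs⟩

/-- A series over `C` vanishing on a `q`-stable `Λ`. -/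
theorem coeff_eq_zero_of_vanish {p h : ℕ} [Fact p.Prime] [CharP C p] (hh : h ≠ 0) {r : ℝ}
    (hr0 : 0 < r) (hr1 : r < 1) (Λ : Set (σ → C)) (hΛ : ∀ Z ∈ Λ, ∀ i, ‖Z i‖ ≤ r)
    (hst : ∀ Z ∈ Λ, (fun i => Z i ^ p ^ h) ∈ Λ) (α₀ : σ →₀ ℕ)
    (hK : ∀ a : (σ →₀ ℕ) → C, (∀ α, a α ^ p ^ h = a α) → a α₀ ≠ 0 →
      ∃ Z ∈ Λ, ∑' α, a α * mon Z α ≠ 0)
    (c : (σ →₀ ℕ) → C) {K₀ B : ℝ} (hB : 0 ≤ B) (hc : ∀ α, ‖c α‖ ≤ K₀ * B ^ Finsupp.degree α)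
    (hv : ∀ Z ∈ Λ, ∑' α, c α * mon Z α = 0) : c α₀ = 0 := by
  obtain ⟨L, hL⟩ := coeff_eq_zero_of_forall_small hh hr0 hr1 Λ hΛ α₀ hK
  refine hL c K₀ B hB hc fun Z hZ => ⟨0, 0, fun N _ => ?_⟩
  rw [hv _ (pow_mem_of_stable hst hZ N), norm_zero, zero_mul]

end Vale.Agent.P217.Rigidity
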